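import Vale.Agent.P287.H139.VerraMain
import Vale.Agent.P287.H100.Main

/-!
Smooth cubic fourfolds containing a plane whose quadratic form is similar to the one of a Verra
fourfold.
-/

namespace Vale.Agent.P287.H754

open MvPolynomial Matrix Vale.Agent.P287 Vale.Agent.P287.H925 Vale.Agent.P287.H925.NetResult
  Vale.Agent.P287.Theta Vale.Agent.P287.H139

/-- The reduction to the normal form of the cubic, for all results on function fields. -/
theorem rational_of_key (F : MvPolynomial (Fin 6) ℂ) (hF : F.IsHomogeneous 3)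
    (hs : SmoothForm F) (q : QuadraticForm RatK (Fin 4 → RatK)) (hq : IsFibrationForm F q)
    (key : ∀ B : Fin 3 → Matrix (Fin 6) (Fin 6) ℂ, Prime (chart (cubic B)) →
      (∀ v : Fin 4 → RatK, (∀ w, pf (qmat B) v w = 0) → v = 0) →
      (∀ v : Fin 4 → RatK, q v = qf (qmat B) v) →
      Nonempty (FractionRing (MvPolynomial (Fin 5) ℂ ⧸ Ideal.span {chart (cubic B)}) ≃ₐ[ℂ]
        FractionRing (MvPolynomial (Fin 4) ℂ))) : RationalHypersurface F := by
  classical
  have hchar : CharZero RatK := charZero_of_injective_algebraMap (algebraMap ℂ RatK).injective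
  -- the cubic contains the plane
  obtain ⟨B, hB⟩ := exists_cubic F hF (by
    intro y
    have h1 := hq ![0, algebraMap ℂ RatK (y 0), algebraMap ℂ RatK (y 1), algebraMap ℂ RatK (y 2)]
    have h2 : (wvec tvec ![0, algebraMap ℂ RatK (y 0), algebraMap ℂ RatK (y 1),
        algebraMap ℂ RatK (y 2)] : Fin 6 → RatK) =
        fun i => algebraMap ℂ RatK ((![0, 0, 0, y 0, y 1, y 2] : Fin 6 → ℂ) i) := by
      funext i
      fin_cases i <;> simp [wvec]
    rw [h2] at h1
    have h3 : aeval (fun i => algebraMap ℂ RatK ((![0, 0, 0, y 0, y 1, y 2] : Fin 6 → ℂ) i)) F =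
        algebraMap ℂ RatK (aeval ![0, 0, 0, y 0, y 1, y 2] F) := by
      have := MvPolynomial.comp_aeval_apply (![0, 0, 0, y 0, y 1, y 2] : Fin 6 → ℂ)
        (Algebra.ofId ℂ RatK) F
      exact this.symm
    rw [h3] at h1
    simp only [Matrix.cons_val_zero, zero_mul] at h1
    exact (map_eq_zero (algebraMap ℂ RatK)).mp h1)
  subst hB
  have nd := nondegenerate_of_smooth B hs
  have hp := prime_of_smooth B hs
  -- the two descriptions of the quadratic form agree
  have hqq : ∀ v : Fin 4 → RatK, q v = qf (qmat B) v := by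
    have h1 : ∀ v : Fin 4 → RatK, v 0 ≠ 0 → q v = qf (qmat B) v := by
      intro v hv
      have := hq v
      rw [aeval_cubic_wvec] at this
      have h2 := mul_left_cancel₀ hv this
      rw [qf_qmat, ← h2]
      simp
    intro v
    by_cases hv : v 0 = 0
    · have e1 := h1 (Pi.single 0 1 + v) (by simp [hv])
      have e2 := h1 (Pi.single 0 1 - v) (by simp [hv])
      have e3 := h1 (Pi.single 0 1) (by simp)
      have p1 := QuadraticMap.map_add q (Pi.single 0 1) v
      have p2 := QuadraticMap.map_add q (Pi.single 0 1) (-v)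
      rw [QuadraticMap.map_neg, QuadraticMap.polar_neg_right] at p2
      rw [sub_eq_add_neg] at e2
      rw [p1, qf_add] at e1
      rw [p2, qf_add] at e2
      have hneg : (-v) = (-1 : RatK) • v := by simp
      rw [hneg, qf_smul, pf_smul_right] at e2
      have : 2 * q v = 2 * qf (qmat B) v := by
        linear_combination e1 + e2 - 2 * e3
      exact mul_left_cancel₀ two_ne_zero this
    · exact h1 v hv
  exact key B hp nd hqq

/-- A linear equivalence as a pair of inverse matrices. -/
lemma exists_matrices {K : Type*} [Field K] {n : ℕ} (φ : (Fin n → K) ≃ₗ[K] (Fin n → K)) :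
    ∃ P P' : Matrix (Fin n) (Fin n) K, P' * P = 1 ∧ ∀ v, act P v = φ v := by
  refine ⟨LinearMap.toMatrix' φ.toLinearMap, LinearMap.toMatrix' φ.symm.toLinearMap, ?_, ?_⟩
  · rw [← LinearMap.toMatrix'_comp]
    have : φ.symm.toLinearMap ∘ₗ φ.toLinearMap = LinearMap.id := by
      ext v
      simp
    rw [this, LinearMap.toMatrix'_id]
  · intro v
    rw [act_self]
    exact LinearMap.toMatrix'_mulVec _ _

/-- **Verra fourfolds.** The form of the fibration is similar to `A(s; x) - w²`, and the second
quadric surface fibration has a point over an extension of odd degree. -/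
theorem rational_of_verra_similar (M : Matrix (Fin 4) (Fin 4) (MvPolynomial (Fin 3) ℂ))
    (hdeg : ∀ i j, (M i j).IsHomogeneous (1 + wt i + wt j)) (hs : SmoothForm (cubicOf M))
    {c : Fin 3 → Fin 3 → Fin 3 → Fin 3 → ℂ} (hc : IsBisymm c)
    (hsm : SmoothP (matA c (X : Fin 3 → P3)).det) {l : RatK}
    (φ : (Fin 4 → RatK) ≃ₗ[RatK] (Fin 4 → RatK))
    (hφ : ∀ v, qf (amat c) (φ v) =
      l * dotProduct v ((M.map (aeval tvec : P3 →ₐ[ℂ] RatK)).mulVec v))
    {R : Type*} [CommRing R] [Algebra RatK R] [FiniteDimensional RatK R]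
    (hodd : Odd (Module.finrank RatK R)) (w : Fin 4 → R) (hw : Ideal.span (Set.range w) = ⊤)
    (hqw : qf (vmat c) w = 0) : RationalHypersurface (cubicOf M) := by
  refine rational_of_key (cubicOf M) (cubicOf_homogeneous M hdeg) hs (qM M)
    (fun w => by rw [qM_apply, aeval_wvec_cubicOf M hdeg]) fun B hp nd hqq => ?_
  obtain ⟨P, P', hPP, hP⟩ := exists_matrices
    ((LinearEquiv.funCongrLeft RatK RatK perm4).trans φ)
  refine rational_of_verra_algebra B hp nd hc hsm hPP (l := l) (fun v => ?_) hodd w hw hqw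
  rw [hP, ← hqq, qM_apply]
  exact hφ (v ∘ perm4)

section four

open Module CliffordAlgebra QuadraticMap Vale.Agent.P287.H100

universe u

/-- Quadratic forms in four variables with Morita equivalent even Clifford algebras are similar, if
one of them is anisotropic. -/
theorem similar_four {K V W : Type u} [Field K] [Invertible (2 : K)] [AddCommGroup V]
    [Module K V] [AddCommGroup W] [Module K W] [FiniteDimensional K V] [FiniteDimensional K W]
    (hV : finrank K V = 4) (hW : finrank K W = 4) (q : QuadraticForm K V) (N : QuadraticForm K W)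
    (hq : q.Anisotropic) (h : IsMoritaEquivalent K (even q) (even N)) :
    ∃ l : K, l ≠ 0 ∧ ∃ φ : V ≃ₗ[K] W, ∀ v, N (φ v) = l * q v := by
  have h2 : (2 : K) ≠ 0 := (isUnit_of_invertible (2 : K)).ne_zero
  obtain ⟨l1, δ, α, β, hl1, hδ, hα, hβ, e1, he1⟩ := exists_four q hV
    (separatingLeft_of_anisotropic q hq)
  have han : ∀ v, q0 δ α β v = 0 → v = 0 := by
    intro v hv
    have h1 : q (e1.symm v) = 0 := by rw [he1, e1.apply_symm_apply, hv, mul_zero]
    exact e1.symm.map_eq_zero_iff.mp (hq _ h1)
  obtain ⟨fq⟩ := exists_even_four h2 hδ hα hβ q hl1 e1 he1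
  have hN : (associated (R := K) N).SeparatingLeft := by
    by_contra hcon
    obtain ⟨b, hb, hb0⟩ := exists_nilpotent N (by omega) hcon
    have := hf_semisimple h2 hδ hα hβ han
    obtain ⟨⟨E⟩⟩ : IsMoritaEquivalent K (Hf δ α β) (even N) :=
      .trans K (.symm K (.of_algEquiv K fq)) h
    exact hb (semiprime_of_equiv E.eqv b hb0)
  obtain ⟨l2, δ', α', β', hl2, hδ', hα', hβ', e2, he2⟩ := exists_four N hW hN
  obtain ⟨fN⟩ := exists_even_four h2 hδ' hα' hβ' N hl2 e2 he2
  have hM : IsMoritaEquivalent K (Hf δ α β) (Hf δ' α' β') :=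
    .trans K (.symm K (.of_algEquiv K fq)) (.trans K h (.of_algEquiv K fN))
  obtain ⟨Φ⟩ := algEquiv_of_morita (by rw [finrank_hf, finrank_hf])
    (enoughUnits h2 hδ hα hβ han) hM
  obtain ⟨l, hl, φ, hφ⟩ := exists_similar Φ h2 hδ hα hβ hα' han
  refine ⟨l2 * l / l1, div_ne_zero (mul_ne_zero hl2 hl) hl1, (e1.trans φ).trans e2.symm, ?_⟩
  intro v
  rw [LinearEquiv.trans_apply, he2, LinearEquiv.apply_symm_apply, he1, LinearEquiv.trans_apply, hφ]
  field_simp

end four

end Vale.Agent.P287.H754
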