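import Vale.Agent.P287.C8.TypeA
import Vale.Agent.P287.H139.Springer

/-!
Rationality when the quadric surface fibration has a multisection of odd degree.
-/

namespace Vale.Agent.P287.H754

open MvPolynomial Module Vale.Agent.P287 Vale.Agent.P287.H925 Vale.Agent.P287.H925.NetResult
  Vale.Agent.P287.Theta

/-- If the quadratic form of the fibration has a zero over an extension of odd degree, then the
cubic fourfold is rational. -/
theorem rational_of_odd_multisection (M : Matrix (Fin 4) (Fin 4) P3)
    (hdeg : ∀ i j, (M i j).IsHomogeneous (1 + wt i + wt j)) (hs : SmoothForm (cubicOf M))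
    {L : Type} [Field L] [Algebra RatK L] [FiniteDimensional RatK L]
    (hodd : Odd (Module.finrank RatK L)) (v : Fin 4 → L) (hv : v ≠ 0)
    (h : v ⬝ᵥ (((M.map (aeval tvec : P3 →ₐ[ℂ] RatK)).map (algebraMap RatK L)).mulVec v) = 0) :
    RationalHypersurface (cubicOf M) := by
  have hchar : CharZero RatK := charZero_of_injective_algebraMap (algebraMap ℂ RatK).injective
  have h1 : qf (M.map (aeval tvec : P3 →ₐ[ℂ] RatK)) v = 0 := by
    rw [← h]
    simp only [qf, dotProduct, Matrix.mulVec, Matrix.map_apply, Finset.mul_sum]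
    refine Finset.sum_congr rfl fun i _ => Finset.sum_congr rfl fun j _ => ?_
    ring
  obtain ⟨w, hw, hqw⟩ := H139.springer hodd (M.map (aeval tvec : P3 →ₐ[ℂ] RatK)) v hv h1
  refine rational_of_isotropic_matrix M hdeg hs w hw ?_
  rw [← hqw]
  simp only [qf, dotProduct, Matrix.mulVec, Matrix.map_apply, Finset.mul_sum]
  refine Finset.sum_congr rfl fun i _ => Finset.sum_congr rfl fun j _ => ?_
  rw [Algebra.algebraMap_self, RingHom.id_apply]
  ring

/-- The same with the form written out. -/
theorem rational_of_odd_multisection' (M : Matrix (Fin 4) (Fin 4) P3)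
    (hdeg : ∀ i j, (M i j).IsHomogeneous (1 + wt i + wt j)) (hs : SmoothForm (cubicOf M))
    {L : Type} [Field L] [Algebra RatK L] [FiniteDimensional RatK L]
    (hodd : Odd (Module.finrank RatK L)) (v : Fin 4 → L) (hv : v ≠ 0)
    (h : ∑ i, ∑ j, algebraMap RatK L (aeval tvec (M i j)) * (v i * v j) = 0) :
    RationalHypersurface (cubicOf M) := by
  refine rational_of_odd_multisection M hdeg hs hodd v hv ?_
  rw [← h]
  simp only [dotProduct, Matrix.mulVec, Matrix.map_apply, Finset.mul_sum]
  refine Finset.sum_congr rfl fun i _ => Finset.sum_congr rfl fun j _ => ?_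
  ring

end Vale.Agent.P287.H754
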